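import Vale.Agent.P218HD.Eqn
import Mathlib.Data.Set.Finite.List

/-! The differential inequality of Bernstein's method. -/

open Set Filter Topology
open scoped ContDiff

namespace Vale.Agent.P218HD

variable {F : Type*} [NormedAddCommGroup F] [NormedSpace ℝ F]
variable {τ : F} {e : Fin 2 → F} {z : ℝ × ℝ} {U : F → ℝ} {p : F} {S : Set F}

/-- the words of length `m` -/
noncomputable def wd (m : ℕ) : Finset (List (Fin 2)) := (List.finite_length_eq (Fin 2) m).toFinset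

lemma mem_wd {m : ℕ} {α : List (Fin 2)} : α ∈ wd m ↔ α.length = m := by simp [wd]

lemma exists_unif (m : ℕ) {P : List (Fin 2) → ℝ → Prop} (hm : ∀ α C C', C ≤ C' → P α C → P α C')
    (h : ∀ α, α.length = m → ∃ C, P α C) : ∃ C, 0 ≤ C ∧ ∀ α, α.length = m → P α C := by
  choose! C hC using h
  refine ⟨∑ α ∈ wd m, |C α|, by positivity, fun α hα => hm α _ _ ?_ (hC α hα)⟩
  exact (le_abs_self _).trans
    (Finset.single_le_sum (f := fun α => |C α|) (fun _ _ => abs_nonneg _) (mem_wd.2 hα))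

lemma low_bound (τ : F) (e : Fin 2 → F) {m : ℕ} (h2 : 2 ≤ m) (M : ℝ) :
    ∃ C, 0 ≤ C ∧ ∀ α : List (Fin 2), α.length = m → ∀ U S, Sol τ e U S → ∀ p ∈ S, ∀ Y, 0 ≤ Y →
      Bd e U p (m + 1) M Y → |LL τ e (d1 e U p) (Dl e α U) p| ≤ C * (1 + Y) := by
  refine exists_unif m (fun α C C' hC h U S hS p hp Y hY hB =>
    (h U S hS p hp Y hY hB).trans (by gcongr)) fun α hα => ?_
  obtain ⟨P, B, n, hP, hB, -, H⟩ := struct τ e α (hα ▸ h2)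
  rw [hα] at hP hB
  obtain ⟨C, -, hC⟩ := ((hP.toPol (by omega) le_rfl (by omega)).add
    ((hB.lift (Nat.lt_succ_self m)).mono zero_le_one)).bound M
  exact ⟨C, fun U S hS p hp Y hY h => by simpa only [H U S hS p hp, pow_one] using hC U p Y hY h⟩

lemma high_bound (τ : F) (e : Fin 2 → F) {m : ℕ} (h2 : 2 ≤ m) {M : ℝ} (hM : 0 ≤ M) :
    ∃ C, 0 ≤ C ∧ ∀ α : List (Fin 2), α.length = m + 1 → ∀ U S, Sol τ e U S → ∀ p ∈ S, ∀ X Y,
      0 ≤ X → 0 ≤ Y → Bd e U p (m + 1) M Y →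
      (∀ γ : List (Fin 2), γ.length = m + 2 → |Dl e γ U p| ≤ X) →
      |LL τ e (d1 e U p) (Dl e α U) p| ≤ C * (X + (1 + Y) ^ 2) := by
  refine exists_unif (m + 1) (fun α C C' hC h U S hS p hp X Y hX hY hB h1 =>
    (h U S hS p hp X Y hX hY hB h1).trans (by gcongr)) fun α hα => ?_
  obtain ⟨P, B, n, hP, hB, hn, H⟩ := struct τ e α (by omega)
  rw [hα] at hP hB hn
  obtain ⟨C, c0, hC⟩ := hP.bound M hM
  obtain ⟨C', c1, hC'⟩ := (hB.mono (hn (by omega))).bound M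
  refine ⟨C + C', fun U S hS p hp X Y hX hY h h1 => ?_⟩
  rw [H U S hS p hp]
  have k1 := hC U p X hX ⟨h.one, fun γ a b => by omega, fun γ a => h.low γ a.ge (by omega)⟩ h1
  have k2 := hC' U p Y hY h
  have k3 := abs_add_le (P U p) (B U p)
  nlinarith [mul_nonneg c1 hX, mul_nonneg c0 (sq_nonneg (1 + Y))]

lemma LL_sumsq {κ : Type*} (s : Finset κ) {v : κ → F → ℝ} (hv : ∀ i ∈ s, Sm (v i) p) (hz : ‖z‖ ≤ 1)
    {a b : ℝ} (ha : ∀ i ∈ s, |v i p| ≤ a) (hb : ∀ i ∈ s, |LL τ e z (v i) p| ≤ b) :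
    LL τ e z (fun q => ∑ i ∈ s, v i q * v i q) p ≤ s.card * (2 * (a * b))
      - 2 / 3 * ∑ x ∈ Finset.univ ×ˢ s, D (e x.1) (v x.2) p * D (e x.1) (v x.2) p := by
  rw [LL_sum s fun i hi => (hv i hi).mul (hv i hi), Finset.sum_product_right, Finset.mul_sum,
    ← nsmul_eq_mul, ← Finset.sum_const, ← Finset.sum_sub_distrib]
  refine Finset.sum_le_sum fun i hi => ?_
  rw [LL_mul (hv i hi) (hv i hi), Fin.sum_univ_two]
  have h1 := Gam_lower (e := e) (f := v i) (p := p) hz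
  have h2 : v i p * LL τ e z (v i) p ≤ a * b := by
    refine (le_abs_self _).trans ?_
    rw [abs_mul]
    exact mul_le_mul (ha i hi) (hb i hi) (abs_nonneg _) ((abs_nonneg _).trans (ha i hi))
  linarith

lemma D_sumsq {κ : Type*} (s : Finset κ) {v : κ → F → ℝ} (hv : ∀ i ∈ s, Sm (v i) p) (w : F)
    {a b : ℝ} (ha : ∀ i ∈ s, |v i p| ≤ a) (hb : ∀ i ∈ s, |D w (v i) p| ≤ b) :
    |D w (fun q => ∑ i ∈ s, v i q * v i q) p| ≤ s.card * (2 * (a * b)) := by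
  rw [D_sum s fun i hi => (hv i hi).diff.fun_mul (hv i hi).diff, ← nsmul_eq_mul,
    ← Finset.sum_const]
  refine (Finset.abs_sum_le_sum_abs _ _).trans (Finset.sum_le_sum fun i hi => ?_)
  rw [D_mul (hv i hi).diff (hv i hi).diff, mul_comm (D _ _ _), ← two_mul, abs_mul, abs_mul, abs_two]
  gcongr
  · exact (abs_nonneg _).trans (ha i hi)
  · exact ha i hi
  · exact hb i hi

lemma abs_le_sqrt_sum {κ : Type*} {s : Finset κ} (v : κ → ℝ) {i : κ} (hi : i ∈ s) :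
    |v i| ≤ √(∑ j ∈ s, v j * v j) :=
  Real.abs_le_sqrt (by
    rw [sq]
    exact Finset.single_le_sum (f := fun j => v j * v j) (fun _ _ => mul_self_nonneg _) hi)

lemma cube_le {N Y : ℝ} (hN : 0 ≤ N) (hY : 0 ≤ Y) :
    N * (1 + Y) ^ 3 ≤ 8 * N + 2 * (24 * N) ^ 4 + Y ^ 4 / 4 := by
  have a1 : (1 + Y) ^ 3 ≤ 8 + 4 * Y ^ 3 := by
    nlinarith [mul_nonneg hY (sq_nonneg (Y - 1)), sq_nonneg (Y - 1)]
  have a2 := mul_le_mul_of_nonneg_left a1 hN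
  have a3 := pow_nonneg hY 4
  have a4 := pow_nonneg hN 4
  rcases le_total Y (24 * N) with h | h
  · have a5 : N * Y ^ 3 ≤ N * (24 * N) ^ 3 := by gcongr
    linarith
  · have a5 := mul_le_mul_of_nonneg_right h (pow_nonneg hY 3)
    linarith

lemma cube_ge {T K Y : ℝ} (hT : 0 ≤ T) (hK : 0 ≤ K) (hY : 0 ≤ Y) :
    T * (K * (Y * (1 + Y) ^ 2)) + T ^ 2 * Y ^ 2 + K * (Y ^ 2 * (1 + Y))
      ≤ (T * K + T ^ 2 + K) * (1 + Y) ^ 3 := by
  have a0 := mul_nonneg hY (sq_nonneg Y)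
  have a1 : Y * (1 + Y) ^ 2 ≤ (1 + Y) ^ 3 := by nlinarith
  have a2 : Y ^ 2 ≤ (1 + Y) ^ 3 := by nlinarith
  have a3 : Y ^ 2 * (1 + Y) ≤ (1 + Y) ^ 3 := by nlinarith
  rw [add_mul, add_mul, mul_assoc]
  gcongr

lemma key_ineq {K : ℝ} (hK : 1 ≤ K) : ∃ Λ c C : ℝ, 1 ≤ Λ ∧ 0 < c ∧ 0 ≤ C ∧
    ∀ X Y A a b g : ℝ, 0 ≤ X → 0 ≤ Y → 0 ≤ A → A ≤ K → a ≤ K * (1 + Y) - 2 / 3 * Y ^ 2 →
      b ≤ K * (Y * (X + (1 + Y) ^ 2)) - 2 / 3 * X ^ 2 → |g| ≤ K * (Y ^ 2 * X) →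
      (Λ + A) * b + Y ^ 2 * a - 2 * g ≤ C - c * ((Λ + A) * Y ^ 2) ^ 2 := by
  have hK2 : K ≤ K ^ 2 := by nlinarith
  obtain ⟨T, hT⟩ : ∃ T, T = 13 * K ^ 2 := ⟨_, rfl⟩
  have hT0 : 0 < T := by rw [hT]; positivity
  have hK0 : 0 ≤ K := by linarith
  refine ⟨12 * K ^ 2, 1 / (6 * T ^ 2), 8 * (T * K + T ^ 2 + K) + 2 * (24 * (T * K + T ^ 2 + K)) ^ 4,
    by linarith, by positivity, by positivity, fun X Y A a b g hX hY hA hAK ha hb hg => ?_⟩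
  have h1 : 12 * K ^ 2 + A ≤ T := by linarith
  have h0 : 0 ≤ 12 * K ^ 2 + A := by positivity
  have h2 : (12 * K ^ 2 + A) * b ≤ T * (K * (Y * (X + (1 + Y) ^ 2))) - 8 * K ^ 2 * X ^ 2 := by
    have k1 := mul_le_mul_of_nonneg_left hb h0
    have k2 := mul_le_mul_of_nonneg_right h1
      (show 0 ≤ K * (Y * (X + (1 + Y) ^ 2)) by positivity)
    have k3 := mul_nonneg hA (sq_nonneg X)
    linarith
  have h3 : -2 * g ≤ 4 * K ^ 2 * X ^ 2 + Y ^ 4 / 4 := by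
    have k1 := neg_abs_le g
    have k2 := sq_nonneg (2 * K * X - Y ^ 2 / 2)
    linarith
  have h4 : T * (K * (Y * X)) ≤ 4 * K ^ 2 * X ^ 2 + T ^ 2 * Y ^ 2 := by
    have k1 := sq_nonneg (2 * K * X - T * Y / 4)
    have k2 := sq_nonneg (T * Y)
    linarith
  have h5 : Y ^ 2 * a ≤ K * (Y ^ 2 * (1 + Y)) - 2 / 3 * Y ^ 4 := by
    have k1 := mul_le_mul_of_nonneg_left ha (sq_nonneg Y)
    linarith
  have h6 : 1 / (6 * T ^ 2) * ((12 * K ^ 2 + A) * Y ^ 2) ^ 2 ≤ Y ^ 4 / 6 := by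
    have : ((12 * K ^ 2 + A) * Y ^ 2) ^ 2 ≤ (T * Y ^ 2) ^ 2 := by gcongr
    refine (mul_le_mul_of_nonneg_left this (by positivity)).trans (le_of_eq ?_)
    field_simp
  have h7 := cube_ge hT0.le hK0 hY
  have h8 := cube_le (show 0 ≤ T * K + T ^ 2 + K by positivity) hY
  linarith

/-- the function of Bernstein's method -/
noncomputable def bf (e : Fin 2 → F) (m : ℕ) (Λ : ℝ) (U : F → ℝ) (q : F) : ℝ :=
  (Λ + ∑ β ∈ wd m, Dl e β U q * Dl e β U q)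
    * ∑ x ∈ Finset.univ ×ˢ wd m, Dl e (x.1 :: x.2) U q * Dl e (x.1 :: x.2) U q

lemma Sm.bf (h : Sm U p) (m : ℕ) (Λ : ℝ) : Sm (bf e m Λ U) p :=
  (contDiffAt_const.add (ContDiffAt.sum fun β _ => (h.Dl β).mul (h.Dl β))).mul
    (ContDiffAt.sum fun _ _ => (h.Dl _).mul (h.Dl _))

lemma bf_nonneg (m : ℕ) {Λ : ℝ} (h : 1 ≤ Λ) : 0 ≤ bf e m Λ U p :=
  mul_nonneg (add_nonneg (by linarith) (Finset.sum_nonneg fun _ _ => mul_self_nonneg _))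
    (Finset.sum_nonneg fun _ _ => mul_self_nonneg _)

lemma mem_prod_wd {m : ℕ} {γ : List (Fin 2)} (h : γ.length = m + 1) :
    ∃ x ∈ (Finset.univ : Finset (Fin 2)) ×ˢ wd m, γ = x.1 :: x.2 := by
  obtain _ | ⟨i, β⟩ := γ
  · simp at h
  · exact ⟨(i, β), by simpa [mem_wd] using h, rfl⟩

lemma le_bf {m : ℕ} {Λ : ℝ} (h : 1 ≤ Λ) {γ : List (Fin 2)} (hγ : γ.length = m + 1) :
    |Dl e γ U p| ≤ √(bf e m Λ U p) := by
  obtain ⟨x, hx, rfl⟩ := mem_prod_wd hγ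
  refine (abs_le_sqrt_sum (fun x : Fin 2 × List (Fin 2) => Dl e (x.1 :: x.2) U p) hx).trans
    (Real.sqrt_le_sqrt (le_mul_of_one_le_left
      (Finset.sum_nonneg fun _ _ => mul_self_nonneg _) ?_))
  exact le_add_of_le_of_nonneg h (Finset.sum_nonneg fun _ _ => mul_self_nonneg _)

theorem bern_ineq (τ : F) (e : Fin 2 → F) {m : ℕ} (h2 : 2 ≤ m) {M : ℝ} (hM : 0 ≤ M) :
    ∃ Λ c C : ℝ, 1 ≤ Λ ∧ 0 < c ∧ 0 ≤ C ∧ ∀ U S, Sol τ e U S → ∀ p ∈ S, ‖d1 e U p‖ ≤ 1 →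
      (∀ γ : List (Fin 2), 2 ≤ γ.length → γ.length ≤ m → |Dl e γ U p| ≤ M) →
      LL τ e (d1 e U p) (bf e m Λ U) p ≤ C - c * bf e m Λ U p ^ 2 := by
  obtain ⟨C1, c1, H1⟩ := low_bound τ e h2 M
  obtain ⟨C2, c2, H2⟩ := high_bound τ e h2 hM
  set N1 : ℝ := ((wd m).card : ℝ) with hN1
  set N2 : ℝ := ((((Finset.univ : Finset (Fin 2)) ×ˢ wd m).card : ℕ) : ℝ) with hN2
  have n1 : 0 ≤ N1 := Nat.cast_nonneg _
  have n2 : 0 ≤ N2 := Nat.cast_nonneg _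
  set K := 1 + N1 * (M * M) + N1 * (2 * (M * C1)) + N2 * (2 * C2) + 16 * (N1 * M * N2) with hK
  have p1 : 0 ≤ N1 * (M * M) := by positivity
  have p2 : 0 ≤ N1 * (2 * (M * C1)) := by positivity
  have p3 : 0 ≤ N2 * (2 * C2) := by positivity
  have p4 : 0 ≤ 16 * (N1 * M * N2) := by positivity
  obtain ⟨Λ, c, C, hΛ, hc, hC, H⟩ := key_ineq (K := K) (by linarith)
  refine ⟨Λ, c, C, hΛ, hc, hC, fun U S hS p hp h1 hb => ?_⟩
  have hU := hS.sm p hp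
  set B := ∑ x ∈ Finset.univ ×ˢ wd m, Dl e (x.1 :: x.2) U p * Dl e (x.1 :: x.2) U p with hB
  set Z := ∑ y ∈ Finset.univ ×ˢ (Finset.univ ×ˢ wd m),
    D (e y.1) (Dl e (y.2.1 :: y.2.2) U) p * D (e y.1) (Dl e (y.2.1 :: y.2.2) U) p with hZ
  have hY2 : √B ^ 2 = B := Real.sq_sqrt (Finset.sum_nonneg fun _ _ => mul_self_nonneg _)
  have hX2 : √Z ^ 2 = Z := Real.sq_sqrt (Finset.sum_nonneg fun _ _ => mul_self_nonneg _)
  have hY := Real.sqrt_nonneg B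
  have hX := Real.sqrt_nonneg Z
  have kY : ∀ γ : List (Fin 2), γ.length = m + 1 → |Dl e γ U p| ≤ √B := fun γ hγ => by
    obtain ⟨x, hx, rfl⟩ := mem_prod_wd hγ
    exact abs_le_sqrt_sum (fun x : Fin 2 × List (Fin 2) => Dl e (x.1 :: x.2) U p) hx
  have kX : ∀ γ : List (Fin 2), γ.length = m + 2 → |Dl e γ U p| ≤ √Z := fun γ hγ => by
    obtain ⟨⟨i, α⟩, hx, rfl⟩ := mem_prod_wd hγ
    obtain ⟨x, hx', rfl⟩ := mem_prod_wd (mem_wd.1 (Finset.mem_product.1 hx).2)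
    exact abs_le_sqrt_sum (fun y : Fin 2 × Fin 2 × List (Fin 2) =>
      D (e y.1) (Dl e (y.2.1 :: y.2.2) U) p) (i := (i, x)) (Finset.mem_product.2 ⟨by simp, hx'⟩)
  have hBd : Bd e U p (m + 1) M √B := ⟨h1, fun γ a b => hb γ a (by omega), kY⟩
  have l1 : ∀ β ∈ wd m, β.length = m := fun β => mem_wd.1
  have l2 : ∀ x ∈ (Finset.univ : Finset (Fin 2)) ×ˢ wd m, (x.1 :: x.2).length = m + 1 :=
    fun x hx => by simp [l1 _ (Finset.mem_product.1 hx).2]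
  have kM : ∀ β ∈ wd m, |Dl e β U p| ≤ M := fun β hβ => hb β (l1 β hβ ▸ h2) (l1 β hβ).le
  have a1 := LL_sumsq (τ := τ) (e := e) (wd m) (fun β _ => hU.Dl β) h1 kM
    fun β hβ => H1 β (l1 β hβ) U S hS p hp _ hY hBd
  have a2 := LL_sumsq (τ := τ) (e := e) (Finset.univ ×ˢ wd m)
    (v := fun x : Fin 2 × List (Fin 2) => Dl e (x.1 :: x.2) U) (fun x _ => hU.Dl _) h1
    (fun x hx => kY _ (l2 x hx)) fun x hx => H2 _ (l2 x hx) U S hS p hp _ _ hX hY hBd kX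
  have a3 := abs_Gam_le (z := d1 e U p)
    (fun j => D_sumsq (wd m) (fun β _ => hU.Dl β) (e j) kM
      fun β hβ => kY (j :: β) (by simp [l1 β hβ]))
    fun j => D_sumsq (Finset.univ ×ˢ wd m)
      (v := fun x : Fin 2 × List (Fin 2) => Dl e (x.1 :: x.2) U) (fun x _ => hU.Dl _) (e j)
      (fun x hx => kY _ (l2 x hx)) fun x hx => kX (j :: x.1 :: x.2) (by simpa using l2 x hx)
  have a4 : ∑ β ∈ wd m, Dl e β U p * Dl e β U p ≤ N1 * (M * M) := by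
    rw [hN1, ← nsmul_eq_mul, ← Finset.sum_const]
    exact Finset.sum_le_sum fun β hβ => by
      rw [← abs_mul_abs_self]; exact mul_self_le_mul_self (abs_nonneg _) (kM β hβ)
  have e1 := LL_mul (τ := τ) (e := e) (z := d1 e U p)
    ((contDiffAt_const (c := Λ)).add (ContDiffAt.sum fun β (_ : β ∈ wd m) =>
      (hU.Dl (e := e) β).mul (hU.Dl (e := e) β)))
    (ContDiffAt.sum fun x (_ : x ∈ Finset.univ ×ˢ wd m) =>
      (hU.Dl (e := e) (x.1 :: x.2)).mul (hU.Dl (e := e) (x.1 :: x.2)))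
  rw [LL_const_add, Gam_const_add] at e1
  change LL τ e (d1 e U p) (bf e m Λ U) p = _ at e1
  change _ ≤ _ - 2 / 3 * B at a1
  rw [e1, bf, ← hB, ← hY2]
  rw [← hZ, ← hX2] at a2
  nth_rewrite 2 [← hY2] at a1
  refine H √Z √B _ _ _ _ hX hY (Finset.sum_nonneg fun _ _ => mul_self_nonneg _) (by linarith)
    (a1.trans ?_) (a2.trans ?_) (a3.trans ?_)
  · have : N1 * (2 * (M * C1)) * (1 + √B) ≤ K * (1 + √B) := by gcongr; linarith
    linarith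
  · have : N2 * (2 * C2) * (√B * (√Z + (1 + √B) ^ 2)) ≤ K * (√B * (√Z + (1 + √B) ^ 2)) := by
      gcongr; linarith
    rw [Real.sqrt_sq hX]
    linarith
  · have : 16 * (N1 * M * N2) * (√B ^ 2 * √Z) ≤ K * (√B ^ 2 * √Z) := by gcongr; linarith
    linarith

end Vale.Agent.P218HD
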