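import Mathlib.Analysis.Calculus.FDeriv.Symmetric
import Mathlib.Analysis.Calculus.DerivativeTest
import Mathlib.Analysis.Calculus.ContDiff.Operations
import Mathlib.Analysis.Calculus.LocalExtr.Basic

/-! Iterated directional derivatives. -/

open Set Filter Topology
open scoped ContDiff

namespace Vale.Agent.P218HD

variable {F : Type*} [NormedAddCommGroup F] [NormedSpace ℝ F]

/-- the directional derivative -/
noncomputable def D (v : F) (f : F → ℝ) : F → ℝ := fun p => fderiv ℝ f p v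

/-- the iterated derivative in the directions `e i`, `i ∈ γ` -/
noncomputable def Dl {ι : Type*} (e : ι → F) : List ι → (F → ℝ) → F → ℝ
  | [], f => f
  | i :: γ, f => D (e i) (Dl e γ f)

/-- smooth at a point -/
abbrev Sm (f : F → ℝ) (p : F) : Prop := ContDiffAt ℝ ∞ f p

variable {f g : F → ℝ} {p : F} {ι : Type*} {e : ι → F}

lemma Sm.diff (h : Sm f p) : DifferentiableAt ℝ f p := h.differentiableAt (by simp)

lemma Sm.ev (h : Sm f p) (n : ℕ) : ∀ᶠ q in 𝓝 p, ContDiffAt ℝ n f q :=
  (h.of_le (by exact_mod_cast le_top)).eventually (by simp)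

lemma Sm.D (h : Sm f p) (v : F) : Sm (D v f) p :=
  (h.fderiv_right (m := ∞) (by simp)).clm_apply contDiffAt_const

lemma Sm.Dl (h : Sm f p) (γ : List ι) : Sm (Dl e γ f) p := by
  induction γ with
  | nil => exact h
  | cons i γ ih => exact ih.D _

lemma Sm.evd (h : Sm f p) : ∀ᶠ q in 𝓝 p, DifferentiableAt ℝ f q :=
  (h.ev 1).mono fun _ hq => hq.differentiableAt (by simp)

lemma D_congr (h : f =ᶠ[𝓝 p] g) (v : F) : D v f =ᶠ[𝓝 p] D v g :=
  (h.fderiv (𝕜 := ℝ)).mono fun q hq => by simp only [D, hq]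

lemma D_comm (h : ContDiffAt ℝ 2 f p) (v w : F) : D v (D w f) p = D w (D v f) p := by
  have h1 : DifferentiableAt ℝ (fderiv ℝ f) p :=
    (h.fderiv_right (m := 1) (by norm_num)).differentiableAt one_ne_zero
  have h2 : ∀ v w, D v (D w f) p = fderiv ℝ (fderiv ℝ f) p v w := fun v w => by
    have := (h1.hasFDerivAt.clm_apply (hasFDerivAt_const w p)).fderiv
    simp only [D]
    change fderiv ℝ (fun q => fderiv ℝ f q w) p v = _
    rw [this]; simp
  rw [h2, h2, (h.isSymmSndFDerivAt (by simp)).eq]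

lemma Sm.comm (h : Sm f p) (v w : F) :
    P218HD.D v (P218HD.D w f) =ᶠ[𝓝 p] P218HD.D w (P218HD.D v f) :=
  (h.ev 2).mono fun _ hq => D_comm hq v w

lemma D_add (hf : DifferentiableAt ℝ f p) (hg : DifferentiableAt ℝ g p) (v : F) :
    D v (fun q => f q + g q) p = D v f p + D v g p := by
  simp only [D]; rw [fderiv_fun_add hf hg]; rfl

lemma D_sub (hf : DifferentiableAt ℝ f p) (hg : DifferentiableAt ℝ g p) (v : F) :
    D v (fun q => f q - g q) p = D v f p - D v g p := by
  simp only [D]; rw [fderiv_fun_sub hf hg]; rfl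

lemma D_mul (hf : DifferentiableAt ℝ f p) (hg : DifferentiableAt ℝ g p) (v : F) :
    D v (fun q => f q * g q) p = f p * D v g p + D v f p * g p := by
  simp only [D]; rw [fderiv_fun_mul hf hg]; simp [mul_comm]

lemma D_const (c : ℝ) (v : F) : D v (fun _ : F => c) = fun _ => 0 := by
  funext p; simp [D]

lemma D_sum {κ : Type*} (s : Finset κ) {f : κ → F → ℝ} (hf : ∀ i ∈ s, DifferentiableAt ℝ (f i) p)
    (v : F) : D v (fun q => ∑ i ∈ s, f i q) p = ∑ i ∈ s, D v (f i) p := by
  simp only [D]; rw [fderiv_fun_sum hf]; simp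

lemma D_comp2 {G : ℝ × ℝ → ℝ} (hG : DifferentiableAt ℝ G (f p, g p))
    (hf : DifferentiableAt ℝ f p) (hg : DifferentiableAt ℝ g p) (v : F) :
    D v (fun q => G (f q, g q)) p
      = D (1, 0) G (f p, g p) * D v f p + D (0, 1) G (f p, g p) * D v g p := by
  have h1 := (hG.hasFDerivAt.comp p (hf.hasFDerivAt.prodMk hg.hasFDerivAt)).fderiv
  simp only [D]
  change fderiv ℝ (G ∘ fun q => (f q, g q)) p v = _
  rw [h1, ContinuousLinearMap.comp_apply, ContinuousLinearMap.prod_apply,
    show (fderiv ℝ f p v, fderiv ℝ g p v) = fderiv ℝ f p v • ((1, 0) : ℝ × ℝ)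
      + fderiv ℝ g p v • ((0, 1) : ℝ × ℝ) by simp, map_add, map_smul, map_smul]
  simp [mul_comm]

lemma hasDerivAt_line (hf : DifferentiableAt ℝ f p) (v : F) :
    HasDerivAt (fun s : ℝ => f (p + s • v)) (D v f p) 0 := by
  have h1 : HasDerivAt (fun s : ℝ => p + s • v) v 0 := by
    simpa using ((hasDerivAt_id (0 : ℝ)).smul_const v).const_add p
  exact HasFDerivAt.comp_hasDerivAt (0 : ℝ) (by simpa using hf.hasFDerivAt) h1

lemma D_eq_of_line (hf : DifferentiableAt ℝ f p) (hg : DifferentiableAt ℝ g p) {v : F}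
    (h : ∀ᶠ s : ℝ in 𝓝 0, f (p + s • v) = g (p + s • v)) : D v f p = D v g p :=
  (hasDerivAt_line hf v).unique ((hasDerivAt_line hg v).congr_of_eventuallyEq h)

lemma tendsto_line (p v : F) : Tendsto (fun s : ℝ => p + s • v) (𝓝 0) (𝓝 p) := by
  have : Continuous fun s : ℝ => p + s • v := by fun_prop
  simpa using this.tendsto 0

/-- first and second derivative test -/
lemma max_line (hf : Sm f p) {v : F} (h : ∀ᶠ s : ℝ in 𝓝 0, f (p + s • v) ≤ f p) :
    D v f p = 0 ∧ D v (D v f) p ≤ 0 := by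
  have hm : IsLocalMax (fun s : ℝ => f (p + s • v)) 0 := by
    filter_upwards [h] with s hs
    simpa using hs
  have h1 := hasDerivAt_line hf.diff v
  have h2 : deriv (fun s : ℝ => f (p + s • v)) =ᶠ[𝓝 0] fun s => D v f (p + s • v) := by
    filter_upwards [(tendsto_line p v).eventually hf.evd] with s hs
    have h3 : HasDerivAt (fun s : ℝ => p + s • v) v s := by
      simpa using ((hasDerivAt_id s).smul_const v).const_add p
    exact (hs.hasFDerivAt.comp_hasDerivAt s h3).deriv
  have h4 : deriv (deriv fun s : ℝ => f (p + s • v)) 0 = D v (D v f) p := by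
    rw [h2.deriv_eq, (hasDerivAt_line (hf.D v).diff v).deriv]
  refine ⟨hm.hasDerivAt_eq_zero h1, not_lt.1 fun hc => ?_⟩
  have h5 := isLocalMin_of_deriv_deriv_pos (h4 ▸ hc) hm.deriv_eq_zero h1.continuousAt
  have h6 : (fun s : ℝ => f (p + s • v)) =ᶠ[𝓝 0] fun _ => f (p + (0 : ℝ) • v) := by
    filter_upwards [hm, h5] with s a b using le_antisymm a b
  rw [h6.deriv.deriv_eq] at h4
  simp only [deriv_const'] at h4
  linarith

/-- the one-sided derivative test -/
lemma max_left (hf : DifferentiableAt ℝ f p) {v : F}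
    (h : ∀ᶠ s : ℝ in 𝓝[<] 0, f (p + s • v) ≤ f p) : 0 ≤ D v f p := by
  refine ge_of_tendsto (hasDerivAt_iff_tendsto_slope_left_right.1 (hasDerivAt_line hf v)).1 ?_
  filter_upwards [h, self_mem_nhdsWithin] with s hs hs0
  rw [slope_def_field, zero_smul, add_zero, sub_zero]
  exact div_nonneg_of_nonpos (sub_nonpos.2 hs) (le_of_lt hs0)

end Vale.Agent.P218HD
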