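import Vale.Agent.P218HD.Pol

/-! The linearised operator of the graphical flow; equations for the derivatives. -/

open Set Filter Topology
open scoped ContDiff

namespace Vale.Agent.P218HD

variable {F : Type*} [NormedAddCommGroup F] [NormedSpace ℝ F]

/-- the rotated gradient -/
def qq (z : ℝ × ℝ) : Fin 2 → ℝ := ![-z.2, z.1]

/-- the coefficients `δ_{jl} - z_j z_l / (1 + |z|²)` -/
noncomputable def aa (j l : Fin 2) (z : ℝ × ℝ) : ℝ :=
  ((if j = l then 1 else 0) + qq z j * qq z l) / (1 + z.1 ^ 2 + z.2 ^ 2)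

lemma contDiff_aa (j l : Fin 2) : ContDiff ℝ ∞ (aa j l) := by
  refine ContDiff.div (contDiff_const.add ?_) (by fun_prop) fun z => by positivity
  fin_cases j <;> fin_cases l <;> simp [qq] <;> fun_prop

lemma aa_symm (z : ℝ × ℝ) : aa 1 0 z = aa 0 1 z := by simp [aa, mul_comm]

/-- the operator `∂_t - a^{jl}(z) ∂_j ∂_l` -/
noncomputable def LL (τ : F) (e : Fin 2 → F) (z : ℝ × ℝ) (f : F → ℝ) (p : F) : ℝ :=
  D τ f p - ∑ j, ∑ l, aa j l z * D (e j) (D (e l) f) p

/-- the form `a^{jl}(z) ∂_j f ∂_l g` -/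
noncomputable def Gam (e : Fin 2 → F) (z : ℝ × ℝ) (f g : F → ℝ) (p : F) : ℝ :=
  ∑ j, ∑ l, aa j l z * (D (e j) f p * D (e l) g p)

variable {τ : F} {e : Fin 2 → F} {z : ℝ × ℝ} {f g U : F → ℝ} {p : F} {S : Set F}

lemma DD_mul (hf : Sm f p) (hg : Sm g p) (v w : F) : D v (D w fun q => f q * g q) p
    = f p * D v (D w g) p + D v f p * D w g p + D w f p * D v g p + D v (D w f) p * g p := by
  have h1 : (D w fun q => f q * g q) =ᶠ[𝓝 p] fun q => f q * D w g q + D w f q * g q := by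
    filter_upwards [hf.evd, hg.evd] with q a b using D_mul a b w
  rw [(D_congr h1 v).self_of_nhds,
    D_add (hf.diff.fun_mul (hg.D w).diff) ((hf.D w).diff.fun_mul hg.diff),
    D_mul hf.diff (hg.D w).diff, D_mul (hf.D w).diff hg.diff]
  ring

lemma LL_mul (hf : Sm f p) (hg : Sm g p) : LL τ e z (fun q => f q * g q) p
    = f p * LL τ e z g p + g p * LL τ e z f p - 2 * Gam e z f g p := by
  simp only [LL, Gam, Fin.sum_univ_two, DD_mul hf hg, D_mul hf.diff hg.diff, aa_symm]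
  ring

lemma LL_sum {κ : Type*} (s : Finset κ) {f : κ → F → ℝ} (hf : ∀ i ∈ s, Sm (f i) p) :
    LL τ e z (fun q => ∑ i ∈ s, f i q) p = ∑ i ∈ s, LL τ e z (f i) p := by
  have h1 : ∀ v w, D v (D w fun q => ∑ i ∈ s, f i q) p = ∑ i ∈ s, D v (D w (f i)) p := by
    intro v w
    have h2 : (D w fun q => ∑ i ∈ s, f i q) =ᶠ[𝓝 p] fun q => ∑ i ∈ s, D w (f i) q := by
      filter_upwards [(Finset.eventually_all s).2 fun i hi => (hf i hi).evd] with q hq
        using D_sum s hq w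
    rw [(D_congr h2 v).self_of_nhds, D_sum s fun i hi => ((hf i hi).D w).diff]
  simp only [LL, h1, D_sum s fun i hi => (hf i hi).diff, Fin.sum_univ_two, Finset.mul_sum,
    Finset.sum_sub_distrib, Finset.sum_add_distrib]

lemma LL_const_add (c : ℝ) :
    LL τ e z (fun q => c + f q) p = LL τ e z f p := by
  have h1 : ∀ v, D v (fun q => c + f q) = D v f := fun v => by
    funext q; simp only [D, fderiv_const_add]
  simp only [LL, h1]

lemma Gam_const_add (c : ℝ) : Gam e z (fun q => c + f q) g p = Gam e z f g p := by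
  have h1 : ∀ v, D v (fun q => c + f q) = D v f := fun v => by
    funext q; simp only [D, fderiv_const_add]
  simp only [Gam, h1]

lemma sq_le_of_norm (hz : ‖z‖ ≤ 1) : z.1 ^ 2 ≤ 1 ∧ z.2 ^ 2 ≤ 1 := by
  have h1 := (norm_fst_le z).trans hz
  have h2 := (norm_snd_le z).trans hz
  rw [Real.norm_eq_abs] at h1 h2
  exact ⟨(sq_le_one_iff_abs_le_one _).2 h1, (sq_le_one_iff_abs_le_one _).2 h2⟩

lemma quad_eq (z : ℝ × ℝ) (x : Fin 2 → ℝ) : ∑ j, ∑ l, aa j l z * (x j * x l)
    = (x 0 ^ 2 + x 1 ^ 2 + (z.1 * x 1 - z.2 * x 0) ^ 2) / (1 + z.1 ^ 2 + z.2 ^ 2) := by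
  simp [aa, qq, Fin.sum_univ_two]
  field_simp
  ring

lemma Gam_lower (hz : ‖z‖ ≤ 1) : (D (e 0) f p ^ 2 + D (e 1) f p ^ 2) / 3 ≤ Gam e z f f p := by
  obtain ⟨h1, h2⟩ := sq_le_of_norm hz
  rw [Gam, quad_eq z fun j => D (e j) f p]
  exact div_le_div₀ (by positivity) (le_add_of_nonneg_right (sq_nonneg _)) (by positivity)
    (by linarith)

lemma Gam_upper : Gam e z f f p ≤ D (e 0) f p ^ 2 + D (e 1) f p ^ 2 := by
  rw [Gam, quad_eq z fun j => D (e j) f p, div_le_iff₀ (by positivity)]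
  nlinarith [sq_nonneg (z.1 * D (e 0) f p + z.2 * D (e 1) f p)]

lemma abs_aa_le (j l : Fin 2) : |aa j l z| ≤ 1 := by
  rw [aa, abs_div, abs_of_pos (show 0 < 1 + z.1 ^ 2 + z.2 ^ 2 by positivity),
    div_le_one (by positivity), abs_le]
  fin_cases j <;> fin_cases l <;> simp [qq] <;> constructor <;>
    nlinarith [sq_nonneg (z.1 + z.2), sq_nonneg (z.1 - z.2)]

lemma abs_Gam_le {a b : ℝ} (ha : ∀ j, |D (e j) f p| ≤ a) (hb : ∀ j, |D (e j) g p| ≤ b) :
    |Gam e z f g p| ≤ 4 * (a * b) := by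
  have h : ∀ j l, |aa j l z * (D (e j) f p * D (e l) g p)| ≤ a * b := fun j l => by
    rw [abs_mul, abs_mul, ← one_mul (a * b)]
    exact mul_le_mul (abs_aa_le j l) (mul_le_mul (ha j) (hb l) (abs_nonneg _)
      ((abs_nonneg _).trans (ha j))) (by positivity) zero_le_one
  simp only [Gam, Fin.sum_univ_two, abs_le] at h ⊢
  constructor <;> linarith [h 0 0, h 0 1, h 1 0, h 1 1]

/-- the maximum principle at a point -/
lemma LL_nonneg (hf : Sm f p) (ht : ∀ᶠ s : ℝ in 𝓝[<] 0, f (p + s • τ) ≤ f p)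
    (hx : ∀ a b : ℝ, ∀ᶠ s : ℝ in 𝓝 0, f (p + s • (a • e 0 + b • e 1)) ≤ f p) :
    (∀ j, D (e j) f p = 0) ∧ 0 ≤ LL τ e z f p := by
  have h0 := max_line hf (hx 1 0)
  have h1 := max_line hf (hx 0 1)
  have h2 := (max_line hf (hx (-z.2) z.1)).2
  simp only [one_smul, zero_smul, add_zero, zero_add] at h0 h1
  have h3 : ∀ g : F → ℝ, D (-z.2 • e 0 + z.1 • e 1) g
      = fun q => -z.2 * D (e 0) g q + z.1 * D (e 1) g q := fun g => by
    funext q; simp only [D, map_add, map_smul, smul_eq_mul]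
  have h4 : ∀ v, D v (fun q => -z.2 * D (e 0) f q + z.1 * D (e 1) f q) p
      = -z.2 * D v (D (e 0) f) p + z.1 * D v (D (e 1) f) p := fun v => by
    rw [D_add ((hf.D _).diff.const_mul _) ((hf.D _).diff.const_mul _),
      D_mul (differentiableAt_const _) (hf.D _).diff, D_mul (differentiableAt_const _) (hf.D _).diff]
    simp [D_const]
  rw [h3 f, h3] at h2
  simp only [h4] at h2
  refine ⟨Fin.forall_fin_two.2 ⟨h0.1, h1.1⟩, ?_⟩
  have h5 : ∑ j, ∑ l, aa j l z * D (e j) (D (e l) f) p = (D (e 0) (D (e 0) f) p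
      + D (e 1) (D (e 1) f) p + (-z.2 * (-z.2 * D (e 0) (D (e 0) f) p + z.1 * D (e 0) (D (e 1) f) p)
      + z.1 * (-z.2 * D (e 1) (D (e 0) f) p + z.1 * D (e 1) (D (e 1) f) p)))
      / (1 + z.1 ^ 2 + z.2 ^ 2) := by
    simp [aa, qq, Fin.sum_univ_two]
    field_simp
    ring
  rw [LL, h5, sub_nonneg]
  exact (div_nonpos_of_nonpos_of_nonneg (by linarith [h0.2, h1.2]) (by positivity)).trans
    (max_left hf.diff ht)

/-- solutions on a set which is open in the space directions -/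
structure Sol (τ : F) (e : Fin 2 → F) (U : F → ℝ) (S : Set F) : Prop where
  op : ∀ p ∈ S, ∀ i, ∀ᶠ s : ℝ in 𝓝 0, p + s • e i ∈ S
  sm : ∀ p ∈ S, Sm U p
  eqn : ∀ p ∈ S, LL τ e (d1 e U p) U p = 0

lemma exists_top (i : Fin 2) (α : List (Fin 2)) : ∃ P, Top e 2 (α.length + 2) P ∧ ∀ U p, Sm U p →
    P U p = ∑ j, ∑ l, D (e i) (fun q => aa j l (d1 e U q)) p * Dl e (j :: l :: α) U p := by
  have h : ∀ j l, ∃ n c, Pol e 2 n c ∧ ∀ U p, Sm U p →
      D (e i) (fun q => aa j l (d1 e U q)) p = c U p := fun j l =>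
    ⟨_, _, ((Pol.coef _ (contDiff_D (contDiff_aa j l) (1, 0))).mul
      (Pol.top [i, 0] le_rfl le_rfl)).add ((Pol.coef _ (contDiff_D (contDiff_aa j l) (0, 1))).mul
      (Pol.top [i, 1] le_rfl le_rfl)), fun U p hU =>
      D_comp2 ((contDiff_aa j l).differentiable (by simp) _) (hU.D _).diff (hU.D _).diff _⟩
  choose n c hc h using h
  refine ⟨_, ((Top.term (0 :: 0 :: α) rfl (hc 0 0)).add (Top.term (0 :: 1 :: α) rfl (hc 0 1))).add
    ((Top.term (1 :: 0 :: α) rfl (hc 1 0)).add (Top.term (1 :: 1 :: α) rfl (hc 1 1))),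
    fun U p hU => ?_⟩
  simp only [Fin.sum_univ_two, h _ _ U p hU]

lemma Sol.step (h : Sol τ e U S) {α : List (Fin 2)} {R : F → ℝ} (hR : ∀ p ∈ S, Sm R p)
    (hα : ∀ p ∈ S, LL τ e (d1 e U p) (Dl e α U) p = R p) (i : Fin 2) (hp : p ∈ S) :
    LL τ e (d1 e U p) (Dl e (i :: α) U) p = D (e i) R p
      + ∑ j, ∑ l, D (e i) (fun q => aa j l (d1 e U q)) p * Dl e (j :: l :: α) U p := by
  have hU := h.sm p hp
  have hV := hU.Dl (e := e) α
  have ha : ∀ j l, DifferentiableAt ℝ (fun q => aa j l (d1 e U q)) p := fun j l =>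
    ((contDiff_aa j l).contDiffAt.comp p hU.d1).differentiableAt (by simp)
  have hb : ∀ j l, DifferentiableAt ℝ
      (fun q => aa j l (d1 e U q) * D (e j) (D (e l) (Dl e α U)) q) p := fun j l =>
    (ha j l).mul ((hV.D _).D _).diff
  have hc : ∀ j, DifferentiableAt ℝ
      (fun q => ∑ l, aa j l (d1 e U q) * D (e j) (D (e l) (Dl e α U)) q) p := fun j =>
    DifferentiableAt.fun_sum fun l _ => hb j l
  have hd := DifferentiableAt.fun_sum (u := Finset.univ) fun j _ => hc j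
  have h1 := D_eq_of_line ((hV.D τ).diff.fun_sub hd) (hR p hp).diff
    ((h.op p hp i).mono fun s hs => hα _ hs)
  have h2 : ∀ j l, D (e i) (D (e j) (D (e l) (Dl e α U))) p
      = D (e j) (D (e l) (D (e i) (Dl e α U))) p := fun j l => by
    rw [((hV.D _).comm _ _).self_of_nhds, (D_congr (hV.comm _ _) _).self_of_nhds]
  rw [D_sub (hV.D τ).diff hd, D_sum _ fun j _ => hc j, (hV.comm _ _).self_of_nhds] at h1
  simp only [fun j => D_sum _ fun l (_ : l ∈ Finset.univ) => hb j l,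
    fun j l => D_mul (ha j l) ((hV.D (e l)).D (e j)).diff, h2, Finset.sum_add_distrib] at h1
  rw [← h1]
  simp only [LL, Dl]
  ring

/-- the structure of the equations for the derivatives -/
theorem struct (τ : F) (e : Fin 2 → F) (α : List (Fin 2)) (h2 : 2 ≤ α.length) :
    ∃ P B n, Top e 2 (α.length + 1) P ∧ Pol e α.length n B ∧ (3 ≤ α.length → n ≤ 2) ∧
      ∀ U S, Sol τ e U S → ∀ p ∈ S, LL τ e (d1 e U p) (Dl e α U) p = P U p + B U p := by
  induction α with
  | nil => simp at h2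
  | cons i α ih =>
    obtain ⟨E, hE, kE⟩ := exists_top (e := e) i α
    by_cases h : 2 ≤ α.length
    · obtain ⟨P, B, n, hP, hB, -, H⟩ := ih h
      obtain ⟨P', b, a, c, k1⟩ := hP.deriv (by omega) i
      obtain ⟨b', c', k2⟩ := hB.deriv' h i (Nat.lt_succ_self _)
      refine ⟨_, _, 2, a.add hE, c.add (c'.mono one_le_two), fun _ => le_rfl, fun U S hS p hp => ?_⟩
      have hU := hS.sm p hp
      rw [hS.step (fun q hq => (hP.sm (hS.sm q hq)).add (hB.sm (hS.sm q hq))) (H U S hS) i hp,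
        D_add (hP.sm hU).diff (hB.sm hU).diff, k1 U p hU, k2 U p hU, ← kE U p hU]
      ring
    · obtain ⟨l, rfl⟩ : ∃ l, α = [l] := List.length_eq_one_iff.1 (by simp at h2; omega)
      obtain ⟨E', hE', kE'⟩ := exists_top (e := e) l []
      obtain ⟨n, hn⟩ := hE'.toPol' le_rfl
      obtain ⟨P', b, n', a, c, k1⟩ := hn.deriv le_rfl i
      refine ⟨_, _, n', a.add hE, c, fun h => by simp at h, fun U S hS p hp => ?_⟩
      have hU := hS.sm p hp
      have k2 : ∀ q ∈ S, LL τ e (d1 e U q) (Dl e [l] U) q = E' U q := fun q hq => by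
        rw [hS.step (α := []) (R := fun _ => 0) (fun _ _ => contDiffAt_const) hS.eqn l hq,
          kE' U q (hS.sm q hq), D_const, zero_add]
      rw [hS.step (fun q hq => hn.sm (hS.sm q hq)) k2 i hp, k1 U p hU, ← kE U p hU]
      ring

end Vale.Agent.P218HD
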