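import Vale.Agent.P218HD.Max
import Vale.Agent.P218UA.Props

/-! Interior estimates for all derivatives of solutions of the graphical flow. -/

open Set Filter Topology Metric
open scoped ContDiff RealInnerProductSpace

namespace Vale.Agent.P218HD

open Vale.Agent.P218UA (E2 gmc HDStmt)
open Vale.Agent.P218.H63 (lap)

section

variable {F F' : Type*} [NormedAddCommGroup F] [NormedSpace ℝ F] [NormedAddCommGroup F']
  [NormedSpace ℝ F'] {ι : Type*}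

lemma D_affine (L : F →L[ℝ] F') (p₀ : F') (c : ℝ) {f : F' → ℝ} {q : F}
    (hf : DifferentiableAt ℝ f (p₀ + L q)) (v : F) :
    D v (fun x => c * f (p₀ + L x)) q = c * D (L v) f (p₀ + L q) := by
  have h := (HasFDerivAt.comp q (f := fun x => p₀ + L x) hf.hasFDerivAt
    (L.hasFDerivAt.const_add p₀)).const_mul c
  simp only [D]
  rw [show (fun x => c * f (p₀ + L x)) = fun x => c * (f ∘ fun x => p₀ + L x) x from rfl, h.fderiv]
  simp

lemma Sm.affine (L : F →L[ℝ] F') (p₀ : F') (c : ℝ) {f : F' → ℝ} {q : F} (hf : Sm f (p₀ + L q)) :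
    Sm (fun x => c * f (p₀ + L x)) q :=
  contDiffAt_const.mul (ContDiffAt.comp q (f := fun x => p₀ + L x) hf
    (contDiffAt_const.add L.contDiff.contDiffAt))

lemma Dl_affine {e : ι → F} {e' : ι → F'} (L : F →L[ℝ] F') (p₀ : F') (c ρ : ℝ)
    (he : ∀ i, L (e i) = ρ • e' i) {f : F' → ℝ} {q : F} (hf : Sm f (p₀ + L q)) (γ : List ι) :
    Dl e γ (fun x => c * f (p₀ + L x))
      =ᶠ[𝓝 q] fun x => c * ρ ^ γ.length * Dl e' γ f (p₀ + L x) := by
  induction γ with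
  | nil => exact Eventually.of_forall fun x => by simp [Dl]
  | cons i γ ih =>
    have hc : ContinuousAt (fun x => p₀ + L x) q := by fun_prop
    filter_upwards [D_congr ih (e i), hc.eventually (hf.Dl (e := e') γ).evd] with x h1 h2
    simp only [Dl]
    rw [h1, D_affine L p₀ _ h2, he]
    simp only [D, map_smul, smul_eq_mul, List.length_cons]
    ring

lemma iter_eq (e : ι → F) {f : F → ℝ} {p : F} (h : Sm f p) {n : ℕ} (g : Fin n → ι) :
    ∀ᶠ q in 𝓝 p, iteratedFDeriv ℝ n f q (fun i => e (g i)) = Dl e (List.ofFn g) f q := by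
  induction n with
  | zero => exact Eventually.of_forall fun q => by simp [Dl]
  | succ n ih =>
    filter_upwards [h.ev (n + 1), D_congr (ih fun i => g i.succ) (e (g 0))] with q h1 h2
    rw [(h1.differentiableAt_iteratedFDeriv (by exact_mod_cast n.lt_succ_self)
      ).iteratedFDeriv_succ_apply_left', List.ofFn_succ]
    exact h2

end

/-- the standard basis of the plane -/
noncomputable def bb (i : Fin 2) : E2 := EuclideanSpace.single i 1

lemma eq_sum_bb (v : E2) : v = ∑ j, v j • bb j := by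
  ext i; fin_cases i <;> simp [bb]

lemma norm_le_of_basis {n : ℕ} (T : ContinuousMultilinearMap ℝ (fun _ : Fin n => E2) ℝ) {C : ℝ}
    (hC : 0 ≤ C) (h : ∀ g : Fin n → Fin 2, |T fun i => bb (g i)| ≤ C) : ‖T‖ ≤ 2 ^ n * C := by
  refine T.opNorm_le_bound (by positivity) fun m => ?_
  rw [show m = fun i => ∑ j, m i j • bb j from funext fun i => eq_sum_bb _, T.map_sum]
  refine (norm_sum_le _ _).trans ((Finset.sum_le_card_nsmul _ _ (C * ∏ i, ‖m i‖) fun g _ => ?_).trans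
    (le_of_eq ?_))
  · rw [T.map_smul_univ, norm_smul, mul_comm, norm_prod]
    exact mul_le_mul (h g) (Finset.prod_le_prod (fun _ _ => norm_nonneg _)
      fun i _ => PiLp.norm_apply_le _ _) (by positivity) hC
  · simp only [← eq_sum_bb]
    simp [mul_assoc]

variable {u : E2 → ℝ} {ξ : E2}

lemma grad_apply (u : E2 → ℝ) (ξ : E2) (i : Fin 2) : gradient u ξ i = D (bb i) u ξ := by
  have := InnerProductSpace.toDual_symm_apply (𝕜 := ℝ) (x := bb i) (y := fderiv ℝ u ξ)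
  rw [D, ← this, bb, EuclideanSpace.inner_single_right]
  simp [gradient]

lemma hess_apply (h : Sm u ξ) (v : E2) (l : Fin 2) :
    fderiv ℝ (gradient u) ξ v l = D v (D (bb l) u) ξ := by
  have h1 : DifferentiableAt ℝ (gradient u) ξ :=
    ((InnerProductSpace.toDual ℝ E2).symm.contDiff.contDiffAt.comp ξ
      (h.fderiv_right (m := 1) (by norm_cast))).differentiableAt one_ne_zero
  have h2 := ((EuclideanSpace.proj l : E2 →L[ℝ] ℝ).hasFDerivAt.comp ξ h1.hasFDerivAt).fderiv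
  rw [show D (bb l) u = (EuclideanSpace.proj l : E2 →L[ℝ] ℝ) ∘ gradient u from
    funext fun q => (grad_apply u q l).symm, D, h2]
  rfl

lemma gmc_eq (h : Sm u ξ) :
    gmc u ξ = ∑ j, ∑ l, aa j l (d1 bb u ξ) * D (bb j) (D (bb l) u) ξ := by
  have h1 : lap u ξ = D (bb 0) (D (bb 0) u) ξ + D (bb 1) (D (bb 1) u) ξ := by
    rw [lap, LinearMap.trace_eq_sum_inner _ (EuclideanSpace.basisFun (Fin 2) ℝ), Fin.sum_univ_two,
      ← hess_apply h, ← hess_apply h]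
    simp [EuclideanSpace.inner_single_left, bb]
  have h2 : ∀ l, fderiv ℝ (gradient u) ξ (gradient u ξ) l
      = D (bb 0) u ξ * D (bb 0) (D (bb l) u) ξ + D (bb 1) u ξ * D (bb 1) (D (bb l) u) ξ := by
    intro l
    rw [eq_sum_bb (gradient u ξ)]
    simp [Fin.sum_univ_two, hess_apply h, grad_apply]
  rw [gmc, h1, EuclideanSpace.real_norm_sq_eq, PiLp.inner_apply]
  simp only [Fin.sum_univ_two, h2, grad_apply]
  simp [aa, qq, d1]
  field_simp
  ring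

lemma slice {U : ℝ × E2 → ℝ} {t : ℝ} {ξ : E2} (h : Sm U (t, ξ)) (γ : List (Fin 2)) :
    Sm (fun x => U (t, x)) ξ ∧ Dl bb γ (fun x => U (t, x)) ξ = Dl e₀ γ U (t, ξ) := by
  have h0 : ∀ x : E2, ((t, 0) : ℝ × E2) + ContinuousLinearMap.inr ℝ ℝ E2 x = (t, x) := by simp
  have h1 := (Dl_affine (e := bb) (e' := e₀) (ContinuousLinearMap.inr ℝ ℝ E2) (t, 0) 1 1
    (fun i => by simp [bb, e₀]) (f := U) (q := ξ) (by rwa [h0]) γ).self_of_nhds
  simp only [h0, one_mul, one_pow] at h1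
  exact ⟨ContDiffAt.comp ξ (f := fun x => (t, x)) h (by fun_prop), h1⟩

lemma hyp_of {u : ℝ → E2 → ℝ} {t₀ ρ K : ℝ} {ξ₀ : E2}
    (h : ∀ t ∈ Icc (t₀ - ρ ^ 2) t₀, ∀ ξ ∈ closedBall ξ₀ ρ,
      ContDiffAt ℝ ∞ (fun q : ℝ × E2 => u q.1 q.2) (t, ξ) ∧
      deriv (fun s => u s ξ) t = gmc (u t) ξ ∧ ‖gradient (u t) ξ‖ ≤ 1 ∧
      ‖fderiv ℝ (gradient (u t)) ξ‖ ≤ K) : Hyp (fun q => u q.1 q.2) (t₀, ξ₀) ρ K := by
  rintro ⟨t, ξ⟩ ⟨ht, hξ⟩
  obtain ⟨h1, h2, h3, h4⟩ := h t ht ξ hξ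
  have k0 : Sm (u t) ξ := (slice h1 []).1
  have k1 : ∀ γ, Dl bb γ (u t) ξ = Dl e₀ γ (fun q : ℝ × E2 => u q.1 q.2) (t, ξ) :=
    fun γ => (slice h1 γ).2
  have k2 : d1 e₀ (fun q : ℝ × E2 => u q.1 q.2) (t, ξ) = d1 bb (u t) ξ :=
    Prod.ext (k1 [0]).symm (k1 [1]).symm
  have k3 : D τ₀ (fun q : ℝ × E2 => u q.1 q.2) (t, ξ) = deriv (fun s => u s ξ) t := by
    have a : HasDerivAt (fun s : ℝ => (s, ξ)) τ₀ t := (hasDerivAt_id t).prodMk (hasDerivAt_const t ξ)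
    exact (HasFDerivAt.comp_hasDerivAt t (f := fun s : ℝ => (s, ξ)) (Sm.diff h1).hasFDerivAt a
      ).deriv.symm
  refine ⟨h1, ?_, ?_, fun γ hγ => ?_⟩
  · rw [LL, k2, k3, h2, gmc_eq k0, sub_eq_zero]
    exact Finset.sum_congr rfl fun j _ => Finset.sum_congr rfl fun l _ => congrArg _ (k1 [j, l])
  · rw [k2, Prod.norm_def, d1, ← grad_apply, ← grad_apply]
    exact max_le ((PiLp.norm_apply_le _ _).trans h3) ((PiLp.norm_apply_le _ _).trans h3)
  · obtain ⟨j, l, rfl⟩ := List.length_eq_two.1 hγ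
    rw [← k1]
    change |D (bb j) (D (bb l) (u t)) ξ| ≤ K
    rw [← hess_apply k0]
    refine (PiLp.norm_apply_le (fderiv ℝ (gradient (u t)) ξ (bb j)) l).trans
      (((fderiv ℝ (gradient (u t)) ξ).le_opNorm _).trans ?_)
    simpa [bb] using h4

/-- the parabolic dilation -/
noncomputable def dil (ρ : ℝ) : ℝ × E2 →L[ℝ] ℝ × E2 :=
  (ρ ^ 2 • ContinuousLinearMap.fst ℝ ℝ E2).prod (ρ • ContinuousLinearMap.snd ℝ ℝ E2)

lemma dil_e (ρ : ℝ) (i : Fin 2) : dil ρ (e₀ i) = ρ • e₀ i := by simp [dil, e₀]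

lemma Hyp.scale {U : ℝ × E2 → ℝ} {p₀ : ℝ × E2} {ρ K : ℝ} (hρ : 0 < ρ) (h : Hyp U p₀ ρ (K / ρ)) :
    Hyp (fun q => ρ⁻¹ * U (p₀ + dil ρ q)) 0 1 K := by
  rintro q ⟨⟨a, b⟩, c⟩
  have hq : p₀ + dil ρ q ∈ Qc p₀ ρ := by
    simp only [Prod.fst_zero, Prod.snd_zero, mem_closedBall, dist_zero_right] at a b c
    refine ⟨⟨?_, ?_⟩, ?_⟩ <;> simp [dil]
    · nlinarith [sq_nonneg ρ]
    · nlinarith [sq_nonneg ρ]
    · rw [norm_smul, Real.norm_of_nonneg hρ.le]; nlinarith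
  obtain ⟨h1, h2, h3, h4⟩ := h _ hq
  have k1 := fun γ => (Dl_affine (dil ρ) p₀ ρ⁻¹ ρ (dil_e ρ) h1 γ).self_of_nhds
  beta_reduce at k1
  have k0 : ∀ i, D (e₀ i) (fun q => ρ⁻¹ * U (p₀ + dil ρ q)) q = D (e₀ i) U (p₀ + dil ρ q) := by
    intro i
    have := k1 [i]
    simp only [Dl, List.length_singleton, pow_one, inv_mul_cancel₀ hρ.ne', one_mul] at this
    exact this
  have k2 : d1 e₀ (fun q => ρ⁻¹ * U (p₀ + dil ρ q)) q = d1 e₀ U (p₀ + dil ρ q) :=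
    Prod.ext (k0 0) (k0 1)
  have k3 : ρ⁻¹ * ρ ^ 2 = ρ := by field_simp
  refine ⟨h1.affine _ _ _, ?_, k2 ▸ h3, fun γ hγ => ?_⟩
  · have k4 : ∀ j l, D (e₀ j) (D (e₀ l) fun q => ρ⁻¹ * U (p₀ + dil ρ q)) q
        = ρ * D (e₀ j) (D (e₀ l) U) (p₀ + dil ρ q) := fun j l =>
      (k1 [j, l]).trans (congrArg (· * _) k3)
    have k5 : dil ρ τ₀ = ρ ^ 2 • τ₀ := by simp [dil, τ₀]
    rw [LL] at h2
    rw [LL, k2, D_affine _ _ _ h1.diff, k5]
    simp only [k4, Fin.sum_univ_two] at h2 ⊢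
    rw [D, map_smul, smul_eq_mul, ← mul_assoc, k3]
    rw [D] at h2
    linear_combination ρ * h2
  · rw [k1 γ, hγ, k3, abs_mul, abs_of_pos hρ, ← le_div_iff₀' hρ]
    exact h4 γ hγ

theorem hd : HDStmt := by
  intro K k hk
  obtain ⟨C, hC, H⟩ := deriv_bound k K 1 one_pos
  refine ⟨2 ^ k * C, fun u t₀ ρ ξ₀ hρ h => ?_⟩
  have h1 := hyp_of h
  have h2 : Sm (fun q : ℝ × E2 => u q.1 q.2) (t₀, ξ₀) :=
    (h t₀ ⟨sub_le_self _ (sq_nonneg _), le_rfl⟩ ξ₀ (mem_closedBall_self hρ.le)).1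
  rw [mul_div_assoc]
  refine norm_le_of_basis _ (by positivity) fun g => ?_
  have h3 := H _ _ (h1.scale hρ) (List.ofFn g) (by simpa using hk) (by simp)
  have h4 := (Dl_affine (dil ρ) (t₀, ξ₀) ρ⁻¹ ρ (dil_e ρ) (q := 0) (by simpa using h2)
    (List.ofFn g)).self_of_nhds
  beta_reduce at h4
  obtain ⟨h5, h6⟩ := slice h2 (List.ofFn g)
  obtain ⟨m, rfl⟩ : ∃ m, k = m + 1 := ⟨k - 1, by omega⟩
  rw [h4, List.length_ofFn, map_zero, add_zero, ← h6, abs_mul, abs_of_pos (by positivity),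
    pow_succ', inv_mul_cancel_left₀ hρ.ne', ← le_div_iff₀' (by positivity)] at h3
  rw [(iter_eq bb (f := u t₀) h5 g).self_of_nhds]
  exact h3

end Vale.Agent.P218HD
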