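import Vale.Agent.P218HD.Bern
import Vale.Agent.P218UA.Defs

/-! The maximum principle with a cutoff function; the induction on the order. -/

open Set Filter Topology Metric
open scoped ContDiff

namespace Vale.Agent.P218HD

open Vale.Agent.P218UA (E2)

section

variable {F : Type*} [NormedAddCommGroup F] [NormedSpace ℝ F]

lemma D_lin (L : F →L[ℝ] ℝ) (c : ℝ) (v : F) : D v (fun q => L q - c) = fun _ => L v := by
  funext q; simp only [D]; rw [fderiv_sub_const, L.fderiv]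

lemma Gam_nonneg {e : Fin 2 → F} {z : ℝ × ℝ} {f : F → ℝ} {p : F} : 0 ≤ Gam e z f f p := by
  rw [Gam, quad_eq z fun j => D (e j) f p]; positivity

lemma max_cut {τ : F} {e : Fin 2 → F} {z : F → ℝ × ℝ} {ψ f : F → ℝ} {Q : Set F} (hQ : IsCompact Q)
    {p₀ : F} (h0 : p₀ ∈ Q) (hψ : ∀ p ∈ Q, Sm ψ p) (hf : ∀ p ∈ Q, Sm f p ∧ 0 ≤ f p) {a b c d C : ℝ}
    (hc : 0 < c) (hC : 0 ≤ C)
    (h : ∀ p ∈ Q, 0 < ψ p → (∀ᶠ s : ℝ in 𝓝[<] 0, p + s • τ ∈ Q) ∧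
      (∀ x y : ℝ, ∀ᶠ s : ℝ in 𝓝 0, p + s • (x • e 0 + y • e 1) ∈ Q) ∧
      LL τ e (z p) f p ≤ C - c * f p ^ 2 ∧ LL τ e (z p) ψ p ≤ a ∧ Gam e (z p) ψ ψ p ≤ b * ψ p ∧
      ψ p ≤ d) : ψ p₀ * f p₀ ≤ max 1 ((C * d ^ 2 + a + 2 * b) / c) := by
  obtain ⟨p, hp, hm⟩ := hQ.exists_isMaxOn (f := fun q => ψ q * f q) ⟨p₀, h0⟩ fun q hq =>
    ((hψ q hq).mul (hf q hq).1).continuousAt.continuousWithinAt
  refine (hm h0).trans (not_lt.1 fun hlt => ?_)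
  rw [max_lt_iff, div_lt_iff₀ hc] at hlt
  obtain ⟨l1, l2⟩ := hlt
  have f0 := (hf p hp).2
  have ψ0 : 0 < ψ p := pos_of_mul_pos_left (zero_lt_one.trans l1) f0
  obtain ⟨k1, k2, k3, k4, k5, k6⟩ := h p hp ψ0
  obtain ⟨m1, m2⟩ := LL_nonneg (τ := τ) (e := e) (z := z p) ((hψ p hp).mul (hf p hp).1)
    (k1.mono fun s hs => hm hs) fun x y => (k2 x y).mono fun s hs => hm hs
  rw [LL_mul (hψ p hp) (hf p hp).1] at m2
  simp only [D_mul (hψ p hp).diff (hf p hp).1.diff] at m1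
  have m3 : ψ p * Gam e (z p) ψ f p = -(f p * Gam e (z p) ψ ψ p) := by
    simp only [Gam, Fin.sum_univ_two]
    linear_combination (aa 0 0 (z p) * D (e 0) ψ p + aa 1 0 (z p) * D (e 1) ψ p) * m1 0
      + (aa 0 1 (z p) * D (e 0) ψ p + aa 1 1 (z p) * D (e 1) ψ p) * m1 1
  have n1 := mul_nonneg ψ0.le m2
  have n2 := mul_le_mul_of_nonneg_left k3 (sq_nonneg (ψ p))
  have n3 := mul_le_mul_of_nonneg_left k4 (mul_nonneg ψ0.le f0)
  have n4 := mul_le_mul_of_nonneg_left k5 f0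
  have n5 : C * ψ p ^ 2 ≤ C * d ^ 2 := by gcongr
  have n6 := mul_lt_mul_of_pos_left l2 (zero_lt_one.trans l1)
  have n7 := mul_le_mul_of_nonneg_left l1.le (show 0 ≤ C * d ^ 2 by positivity)
  linarith

end

/-- the time direction -/
noncomputable def τ₀ : ℝ × E2 := (1, 0)

/-- the space directions -/
noncomputable def e₀ (i : Fin 2) : ℝ × E2 := (0, EuclideanSpace.single i 1)

/-- the closed parabolic cylinder -/
def Qc (p : ℝ × E2) (r : ℝ) : Set (ℝ × E2) := Icc (p.1 - r ^ 2) p.1 ×ˢ closedBall p.2 r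

/-- the parabolic cylinder, open in space -/
def Qo (p : ℝ × E2) (r : ℝ) : Set (ℝ × E2) := Icc (p.1 - r ^ 2) p.1 ×ˢ ball p.2 r

/-- the space coordinates -/
noncomputable def xx (j : Fin 2) : ℝ × E2 →L[ℝ] ℝ :=
  (EuclideanSpace.proj j).comp (ContinuousLinearMap.snd ℝ ℝ E2)

lemma xx_apply (j : Fin 2) (p : ℝ × E2) : xx j p = p.2 j := rfl

/-- the space cutoff -/
noncomputable def ze (p₀ : ℝ × E2) (r : ℝ) (p : ℝ × E2) : ℝ :=
  r ^ 2 - ((xx 0 p - xx 0 p₀) * (xx 0 p - xx 0 p₀) + (xx 1 p - xx 1 p₀) * (xx 1 p - xx 1 p₀))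

/-- the time cutoff -/
noncomputable def ti (p₀ : ℝ × E2) (r : ℝ) (p : ℝ × E2) : ℝ :=
  ContinuousLinearMap.fst ℝ ℝ E2 p - (p₀.1 - r ^ 2)

variable {p₀ p : ℝ × E2} {r : ℝ} {z : ℝ × ℝ}

lemma ze_eq : ze p₀ r p = r ^ 2 - dist p.2 p₀.2 ^ 2 := by
  rw [EuclideanSpace.dist_sq_eq, Fin.sum_univ_two]
  simp only [ze, xx_apply, Real.dist_eq, sq_abs]
  ring

lemma sm_ze : Sm (ze p₀ r) p := by
  unfold ze Sm; fun_prop

lemma sm_ti : Sm (ti p₀ r) p := by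
  unfold ti Sm; fun_prop

lemma D_ze (v : ℝ × E2) : D v (ze p₀ r) = fun p =>
    (-(2 * xx 0 v) • xx 0 - (2 * xx 1 v) • xx 1) p - (-(2 * xx 0 v) • xx 0 - (2 * xx 1 v) • xx 1) p₀ := by
  funext p
  have h : ∀ j, DifferentiableAt ℝ (fun q => xx j q - xx j p₀) p := fun j => by fun_prop
  unfold ze
  rw [D_sub (differentiableAt_const _) (((h 0).fun_mul (h 0)).fun_add ((h 1).fun_mul (h 1))),
    D_add ((h 0).fun_mul (h 0)) ((h 1).fun_mul (h 1)), D_mul (h 0) (h 0), D_mul (h 1) (h 1), D_lin,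
    D_lin, D_const]
  simp
  ring

lemma LL_ze : LL τ₀ e₀ z (ze p₀ r) p ≤ 4 := by
  simp only [LL, D_ze, D_lin, Fin.sum_univ_two]
  simp [xx_apply, τ₀, e₀]
  linarith [abs_le.1 (abs_aa_le (z := z) 0 0), abs_le.1 (abs_aa_le (z := z) 1 1)]

lemma D_ze_sq : D (e₀ 0) (ze p₀ r) p ^ 2 + D (e₀ 1) (ze p₀ r) p ^ 2 = 4 * (r ^ 2 - ze p₀ r p) := by
  simp only [D_ze]
  simp [xx_apply, e₀, ze]
  ring

lemma D_ti (v : ℝ × E2) : D v (ti p₀ r) = fun _ => v.1 := D_lin _ _ _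

lemma max_cyl (hr : 0 < r) {c C : ℝ} (hc : 0 < c) (hC : 0 ≤ C) : ∃ C', ∀ (f : ℝ × E2 → ℝ)
    (z : ℝ × E2 → ℝ × ℝ) (p₀ : ℝ × E2), (∀ p ∈ Qc p₀ r, Sm f p ∧ 0 ≤ f p) →
    (∀ p ∈ Qo p₀ r, LL τ₀ e₀ (z p) f p ≤ C - c * f p ^ 2) → f p₀ ≤ C' := by
  refine ⟨max 1 ((C * (r ^ 6) ^ 2 + 9 * r ^ 4 + 2 * (16 * r ^ 4)) / c) / r ^ 6,
    fun f z p₀ hf h => ?_⟩
  have key := max_cut (τ := τ₀) (e := e₀) (z := z)
    (ψ := fun p => ti p₀ r p * (ze p₀ r p * ze p₀ r p)) (Q := Qc p₀ r) (p₀ := p₀)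
    (isCompact_Icc.prod (isCompact_closedBall _ _))
    ⟨⟨sub_le_self _ (sq_nonneg r), le_rfl⟩, mem_closedBall_self hr.le⟩
    (fun p _ => sm_ti.mul (sm_ze.mul sm_ze)) hf (a := 9 * r ^ 4) (b := 16 * r ^ 4) (d := r ^ 6) hc hC
    fun p hp hψ => ?_
  · rw [le_div_iff₀ (by positivity), mul_comm]
    refine le_trans (le_of_eq ?_) key
    simp only [ze_eq, ti, dist_self]
    simp
    ring_nf
    simp
  obtain ⟨⟨t1, t2⟩, hx⟩ := hp
  have T0 : 0 < ti p₀ r p := pos_of_mul_pos_left hψ (mul_self_nonneg _)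
  have T1 : ti p₀ r p ≤ r ^ 2 := by simp only [ti]; simp; linarith
  have z1 : ze p₀ r p ≤ r ^ 2 := by rw [ze_eq]; exact sub_le_self _ (sq_nonneg _)
  have z0 : 0 ≤ ze p₀ r p := by
    rw [ze_eq, sub_nonneg]; exact pow_le_pow_left₀ dist_nonneg hx 2
  have z2 : p.2 ∈ ball p₀.2 r := by
    refine lt_of_le_of_ne (mem_closedBall.1 hx) fun h => ?_
    simp [ze_eq, h] at hψ
  have z3 : ze p₀ r p * ze p₀ r p ≤ r ^ 2 * r ^ 2 := by gcongr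
  refine ⟨?_, fun x y => ?_, h p ⟨⟨t1, t2⟩, z2⟩, ?_, ?_, ?_⟩
  · have : p₀.1 - r ^ 2 - p.1 < 0 := by simp only [ti] at T0; simp at T0; linarith
    filter_upwards [Ioo_mem_nhdsLT this] with s hs
    refine ⟨⟨?_, ?_⟩, by simpa [τ₀] using hx⟩ <;> simp [τ₀] <;> linarith [hs.1, hs.2]
  · filter_upwards [(tendsto_line p (x • e₀ 0 + y • e₀ 1)).eventually
      ((isOpen_ball.preimage continuous_snd).mem_nhds z2)] with s hs
    exact ⟨by simpa [e₀] using (⟨t1, t2⟩ : p.1 ∈ Icc _ _), ball_subset_closedBall hs⟩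
  · have a1 : LL τ₀ e₀ (z p) (ti p₀ r) p = 1 := by simp [LL, D_ti, D_const, τ₀]
    have a2 : Gam e₀ (z p) (ti p₀ r) (fun p => ze p₀ r p * ze p₀ r p) p = 0 := by
      simp [Gam, D_ti, e₀]
    have a3 : LL τ₀ e₀ (z p) (fun p => ze p₀ r p * ze p₀ r p) p ≤ 8 * r ^ 2 := by
      rw [LL_mul sm_ze sm_ze]
      have := mul_le_mul_of_nonneg_left (LL_ze (z := z p) (p₀ := p₀) (r := r) (p := p)) z0
      linarith [Gam_nonneg (e := e₀) (z := z p) (f := ze p₀ r) (p := p)]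
    rw [LL_mul sm_ti (sm_ze.mul sm_ze), a1, a2]
    have a4 := mul_le_mul_of_nonneg_left a3 T0.le
    have a5 := mul_le_mul_of_nonneg_right T1 (show 0 ≤ 8 * r ^ 2 by positivity)
    linarith
  · refine Gam_upper.trans ?_
    simp only [D_mul sm_ti.diff (sm_ze.diff.fun_mul sm_ze.diff), D_mul sm_ze.diff sm_ze.diff, D_ti]
    have a1 : ti p₀ r p * (r ^ 2 - ze p₀ r p) ≤ r ^ 2 * r ^ 2 := by gcongr; linarith
    have a2 := mul_le_mul_of_nonneg_right a1 hψ.le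
    have a3 := D_ze_sq (p₀ := p₀) (r := r) (p := p)
    simp only [e₀] at a3 ⊢
    linear_combination 16 * a2 + 4 * (ti p₀ r p * ze p₀ r p) ^ 2 * a3
  · have := mul_le_mul T1 z3 (mul_self_nonneg _) (sq_nonneg r)
    linarith

/-- the hypotheses on a solution in a cylinder -/
def Hyp (U : ℝ × E2 → ℝ) (p₀ : ℝ × E2) (r K : ℝ) : Prop :=
  ∀ p ∈ Qc p₀ r, Sm U p ∧ LL τ₀ e₀ (d1 e₀ U p) U p = 0 ∧ ‖d1 e₀ U p‖ ≤ 1 ∧
    ∀ γ : List (Fin 2), γ.length = 2 → |Dl e₀ γ U p| ≤ K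

lemma Qc_half (hp : p ∈ Qc p₀ (r / 2)) : Qc p (r / 2) ⊆ Qc p₀ r := by
  rintro q ⟨⟨a, b⟩, c⟩
  obtain ⟨⟨a', b'⟩, c'⟩ := hp
  refine ⟨⟨by nlinarith [sq_nonneg r], b.trans b'⟩, ?_⟩
  rw [mem_closedBall] at *
  linarith [dist_triangle q.2 p.2 p₀.2]

theorem deriv_bound (k : ℕ) (K : ℝ) : ∀ r, 0 < r → ∃ C, 0 ≤ C ∧ ∀ U p₀, Hyp U p₀ r K →
    ∀ γ : List (Fin 2), 2 ≤ γ.length → γ.length ≤ k + 2 → |Dl e₀ γ U p₀| ≤ C := by
  induction k with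
  | zero =>
    exact fun r hr => ⟨|K|, abs_nonneg K, fun U p₀ h γ a b => ((h p₀
      ⟨⟨sub_le_self _ (sq_nonneg r), le_rfl⟩, mem_closedBall_self hr.le⟩).2.2.2 γ
      (le_antisymm b a)).trans (le_abs_self K)⟩
  | succ k ih =>
    intro r hr
    obtain ⟨M, hM, H⟩ := ih (r / 2) (half_pos hr)
    obtain ⟨Λ, c, C, hΛ, hc, hC, H1⟩ := bern_ineq τ₀ e₀ (m := k + 2) (by omega) hM
    obtain ⟨C', H2⟩ := max_cyl (half_pos hr) hc hC
    refine ⟨max M √C', hM.trans (le_max_left _ _), fun U p₀ h γ a b => ?_⟩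
    have h0 : p₀ ∈ Qc p₀ (r / 2) :=
      ⟨⟨sub_le_self _ (sq_nonneg _), le_rfl⟩, mem_closedBall_self (half_pos hr).le⟩
    have s1 : Qo p₀ (r / 2) ⊆ Qc p₀ (r / 2) := prod_mono le_rfl ball_subset_closedBall
    have s2 := Qc_half h0
    have hS : Sol τ₀ e₀ U (Qo p₀ (r / 2)) := ⟨fun p hp i => ?_, fun p hp => (h p (s2 (s1 hp))).1,
      fun p hp => (h p (s2 (s1 hp))).2.1⟩
    · rcases b.lt_or_eq with b | b
      · exact (H U p₀ (fun q hq => h q (s2 hq)) γ a (by omega)).trans (le_max_left _ _)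
      · refine (le_bf hΛ b).trans ((Real.sqrt_le_sqrt (H2 _ (d1 e₀ U) p₀
          (fun p hp => ⟨(h p (s2 hp)).1.bf _ _, bf_nonneg _ hΛ⟩) fun p hp => ?_)).trans
          (le_max_right _ _))
        exact H1 U _ hS p hp (h p (s2 (s1 hp))).2.2.1
          (H U p fun q hq => h q (Qc_half (s1 hp) hq))
    · filter_upwards [(tendsto_line p (e₀ i)).eventually
        ((isOpen_ball.preimage continuous_snd).mem_nhds hp.2)] with s hs
      exact ⟨by simpa [e₀] using hp.1, hs⟩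

end Vale.Agent.P218HD
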