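import Vale.Agent.P218HD.Calc

/-! Differential polynomials and the structure of the differentiated graphical flow equation. -/

open Set Filter Topology
open scoped ContDiff

namespace Vale.Agent.P218HD

variable {F : Type*} [NormedAddCommGroup F] [NormedSpace ℝ F]

/-- the pair of the first derivatives -/
noncomputable def d1 (e : Fin 2 → F) (U : F → ℝ) (p : F) : ℝ × ℝ := (D (e 0) U p, D (e 1) U p)

/-- polynomials in the derivatives of orders `2, ..., m`, of degree at most `n` in those of order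
`m`, whose coefficients are smooth functions of the first derivatives -/
inductive Pol (e : Fin 2 → F) (m : ℕ) : ℕ → ((F → ℝ) → F → ℝ) → Prop
  | coef (G : ℝ × ℝ → ℝ) (hG : ContDiff ℝ ∞ G) : Pol e m 0 fun U p => G (d1 e U p)
  | low (γ : List (Fin 2)) (h2 : 2 ≤ γ.length) (hm : γ.length < m) : Pol e m 0 (Dl e γ)
  | top (γ : List (Fin 2)) (h2 : 2 ≤ γ.length) (hm : γ.length ≤ m) : Pol e m 1 (Dl e γ)
  | add {n Φ Ψ} : Pol e m n Φ → Pol e m n Ψ → Pol e m n fun U p => Φ U p + Ψ U p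
  | mul {n n' Φ Ψ} : Pol e m n Φ → Pol e m n' Ψ → Pol e m (n + n') fun U p => Φ U p * Ψ U p
  | mono {n n' Φ} : Pol e m n Φ → n ≤ n' → Pol e m n' Φ

/-- linear forms in the derivatives of order `m` with coefficients of order `j` -/
inductive Top (e : Fin 2 → F) (j m : ℕ) : ((F → ℝ) → F → ℝ) → Prop
  | zero : Top e j m fun _ _ => 0
  | term {n c} (γ : List (Fin 2)) (hm : γ.length = m) :
      Pol e j n c → Top e j m fun U p => c U p * Dl e γ U p
  | add {Φ Ψ} : Top e j m Φ → Top e j m Ψ → Top e j m fun U p => Φ U p + Ψ U p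

/-- bounds for the derivatives -/
structure Bd (e : Fin 2 → F) (U : F → ℝ) (p : F) (m : ℕ) (M Y : ℝ) : Prop where
  one : ‖d1 e U p‖ ≤ 1
  low : ∀ γ : List (Fin 2), 2 ≤ γ.length → γ.length < m → |Dl e γ U p| ≤ M
  top : ∀ γ : List (Fin 2), γ.length = m → |Dl e γ U p| ≤ Y

variable {e : Fin 2 → F} {m n j : ℕ} {Φ Ψ : (F → ℝ) → F → ℝ} {U : F → ℝ} {p : F}

lemma Sm.d1 (h : Sm U p) : ContDiffAt ℝ ∞ (d1 e U) p := (h.D _).prodMk (h.D _)

namespace Pol

lemma const (c : ℝ) : Pol e m 0 fun _ _ => c := coef (fun _ => c) contDiff_const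

lemma add' {n' : ℕ} (h : Pol e m n Φ) (h' : Pol e m n' Ψ) :
    Pol e m (n + n') fun U p => Φ U p + Ψ U p :=
  (h.mono (Nat.le_add_right _ _)).add (h'.mono (Nat.le_add_left _ _))

lemma sm (h : Pol e m n Φ) (hU : Sm U p) : Sm (Φ U) p := by
  induction h with
  | coef G hG => exact hG.contDiffAt.comp p hU.d1
  | low γ _ _ => exact hU.Dl γ
  | top γ _ _ => exact hU.Dl γ
  | add _ _ h1 h2 => exact h1.add h2
  | mul _ _ h1 h2 => exact h1.mul h2
  | mono _ _ h1 => exact h1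

lemma lift (h : Pol e m n Φ) {m' : ℕ} (hm : m < m') : Pol e m' 0 Φ := by
  induction h with
  | coef G hG => exact coef G hG
  | low γ h2 h => exact low γ h2 (h.trans hm)
  | top γ h2 h => exact low γ h2 (h.trans_lt hm)
  | add _ _ h1 h2 => exact h1.add h2
  | mul _ _ h1 h2 => exact h1.mul h2
  | mono _ _ h1 => exact h1

lemma bound (h : Pol e m n Φ) (M : ℝ) : ∃ C, 0 ≤ C ∧ ∀ U p Y, 0 ≤ Y → Bd e U p m M Y →
    |Φ U p| ≤ C * (1 + Y) ^ n := by
  induction h with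
  | coef G hG =>
    obtain ⟨C, hC⟩ := (isCompact_closedBall (0 : ℝ × ℝ) 1).exists_bound_of_continuousOn
      hG.continuous.continuousOn
    refine ⟨max C 0, le_max_right _ _, fun U p Y _ hB => ?_⟩
    rw [pow_zero, mul_one]
    exact (hC _ (mem_closedBall_zero_iff.2 hB.one)).trans (le_max_left _ _)
  | low γ h2 h =>
    refine ⟨max M 0, le_max_right _ _, fun U p Y _ hB => ?_⟩
    rw [pow_zero, mul_one]
    exact (hB.low γ h2 h).trans (le_max_left _ _)
  | top γ h2 h =>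
    refine ⟨max M 1, zero_le_one.trans (le_max_right _ _), fun U p Y hY hB => ?_⟩
    rw [pow_one]
    have := le_max_left M 1
    have := le_max_right M 1
    rcases h.lt_or_eq with h | h
    · nlinarith [hB.low γ h2 h]
    · nlinarith [hB.top γ h]
  | add _ _ h1 h2 =>
    obtain ⟨C1, p1, h1⟩ := h1
    obtain ⟨C2, p2, h2⟩ := h2
    refine ⟨C1 + C2, by positivity, fun U p Y hY hB => (abs_add_le _ _).trans ?_⟩
    rw [add_mul]
    exact add_le_add (h1 U p Y hY hB) (h2 U p Y hY hB)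
  | mul _ _ h1 h2 =>
    obtain ⟨C1, p1, h1⟩ := h1
    obtain ⟨C2, p2, h2⟩ := h2
    refine ⟨C1 * C2, by positivity, fun U p Y hY hB => ?_⟩
    rw [abs_mul, pow_add, mul_mul_mul_comm]
    exact mul_le_mul (h1 U p Y hY hB) (h2 U p Y hY hB) (abs_nonneg _) (by positivity)
  | mono _ hn h1 =>
    obtain ⟨C, p1, h1⟩ := h1
    refine ⟨C, p1, fun U p Y hY hB => (h1 U p Y hY hB).trans ?_⟩
    gcongr
    linarith

end Pol

namespace Top

lemma smul (h : Top e j m Φ) (hc : Pol e j n Ψ) : Top e j m fun U p => Ψ U p * Φ U p := by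
  induction h with
  | zero => simpa using zero
  | term γ hm h1 => simpa only [mul_assoc] using term γ hm (hc.mul h1)
  | add _ _ h1 h2 => simpa only [mul_add] using h1.add h2

lemma toPol (h : Top e j m Φ) {m' : ℕ} (hj : j < m') (hm : m ≤ m') (h2 : 2 ≤ m) :
    Pol e m' 1 Φ := by
  induction h with
  | zero => exact (Pol.const 0).mono zero_le_one
  | term γ hγ h1 => exact (h1.lift hj).mul (Pol.top γ (hγ ▸ h2) (hγ ▸ hm))
  | add _ _ h1 h2 => exact h1.add h2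

lemma toPol' (h : Top e m m Φ) (h2 : 2 ≤ m) : ∃ n, Pol e m n Φ := by
  induction h with
  | zero => exact ⟨0, Pol.const 0⟩
  | term γ hγ h1 => exact ⟨_, h1.mul (Pol.top γ (hγ ▸ h2) hγ.le)⟩
  | add _ _ h1 h2 =>
    obtain ⟨_, h1⟩ := h1
    obtain ⟨_, h2⟩ := h2
    exact ⟨_, h1.add' h2⟩

lemma sm (h : Top e j m Φ) (hU : Sm U p) : Sm (Φ U) p := by
  induction h with
  | zero => exact contDiffAt_const
  | term γ _ h1 => exact (h1.sm hU).mul (hU.Dl γ)
  | add _ _ h1 h2 => exact h1.add h2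

lemma bound (h : Top e j m Φ) (M : ℝ) (hM : 0 ≤ M) : ∃ C, 0 ≤ C ∧ ∀ U p X, 0 ≤ X →
    Bd e U p j M M → (∀ γ : List (Fin 2), γ.length = m → |Dl e γ U p| ≤ X) →
    |Φ U p| ≤ C * X := by
  induction h with
  | zero => exact ⟨0, le_rfl, fun _ _ _ _ _ _ => by simp⟩
  | @term n c γ hγ h1 =>
    obtain ⟨C, p1, h1⟩ := h1.bound M
    refine ⟨C * (1 + M) ^ n, by positivity, fun U p X _ hB hX => ?_⟩
    rw [abs_mul]
    exact mul_le_mul (h1 U p M hM hB) (hX γ hγ) (abs_nonneg _) (by positivity)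
  | add _ _ h1 h2 =>
    obtain ⟨C1, p1, h1⟩ := h1
    obtain ⟨C2, p2, h2⟩ := h2
    refine ⟨C1 + C2, by positivity, fun U p X hX hB h => (abs_add_le _ _).trans ?_⟩
    rw [add_mul]
    exact add_le_add (h1 U p X hX hB h) (h2 U p X hX hB h)

end Top

lemma contDiff_D {G : F → ℝ} (hG : ContDiff ℝ ∞ G) (v : F) : ContDiff ℝ ∞ (D v G) :=
  contDiff_iff_contDiffAt.2 fun _ => Sm.D hG.contDiffAt v

lemma Pol.deriv (h : Pol e m n Φ) (h2 : 2 ≤ m) (i : Fin 2) : ∃ P b n', Top e m (m + 1) P ∧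
    Pol e m n' b ∧ ∀ U p, Sm U p → D (e i) (Φ U) p = P U p + b U p := by
  induction h with
  | coef G hG =>
    refine ⟨_, _, _, Top.zero, ((Pol.coef _ (contDiff_D hG (1, 0))).mul
      (Pol.top [i, 0] le_rfl h2)).add ((Pol.coef _ (contDiff_D hG (0, 1))).mul
      (Pol.top [i, 1] le_rfl h2)), fun U p hU => ?_⟩
    rw [zero_add]
    exact D_comp2 (hG.differentiable (by simp) _) (hU.D _).diff (hU.D _).diff _
  | low γ h2 h =>
    exact ⟨_, _, _, Top.zero, Pol.top (i :: γ) (h2.trans (Nat.le_succ _)) h,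
      fun U p _ => (zero_add _).symm⟩
  | top γ h2 h =>
    rcases h.lt_or_eq with h | h
    · exact ⟨_, _, _, Top.zero, Pol.top (i :: γ) (h2.trans (Nat.le_succ _)) h,
        fun U p _ => (zero_add _).symm⟩
    · exact ⟨_, _, _, Top.term (i :: γ) (by simp [h]) (Pol.const 1), Pol.const 0,
        fun U p _ => by simp [Dl]⟩
  | add k1 k2 h1 h2 =>
    obtain ⟨P1, b1, n1, a1, c1, h1⟩ := h1
    obtain ⟨P2, b2, n2, a2, c2, h2⟩ := h2
    refine ⟨_, _, _, a1.add a2, c1.add' c2, fun U p hU => ?_⟩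
    rw [D_add (k1.sm hU).diff (k2.sm hU).diff, h1 U p hU, h2 U p hU]; ring
  | mul k1 k2 h1 h2 =>
    obtain ⟨P1, b1, n1, a1, c1, h1⟩ := h1
    obtain ⟨P2, b2, n2, a2, c2, h2⟩ := h2
    refine ⟨_, _, _, (a2.smul k1).add (a1.smul k2), (k1.mul c2).add' (k2.mul c1),
      fun U p hU => ?_⟩
    rw [D_mul (k1.sm hU).diff (k2.sm hU).diff, h1 U p hU, h2 U p hU]; ring
  | mono _ _ h1 => exact h1

lemma Pol.deriv' (h : Pol e m n Φ) (h2 : 2 ≤ m) (i : Fin 2) {m' : ℕ} (hm : m < m') : ∃ b,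
    Pol e m' 1 b ∧ ∀ U p, Sm U p → D (e i) (Φ U) p = b U p := by
  obtain ⟨P, b, n', a, c, h1⟩ := h.deriv h2 i
  exact ⟨_, (a.toPol hm hm (by omega)).add ((c.lift hm).mono zero_le_one), h1⟩

lemma Top.deriv (h : Top e 2 m Φ) (h3 : 3 ≤ m) (i : Fin 2) : ∃ P b, Top e 2 (m + 1) P ∧
    Pol e m 2 b ∧ ∀ U p, Sm U p → D (e i) (Φ U) p = P U p + b U p := by
  induction h with
  | zero => exact ⟨_, _, Top.zero, (Pol.const 0).mono zero_le_two, fun U p _ => by simp [D]⟩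
  | term γ hγ k1 =>
    obtain ⟨b, c, h1⟩ := k1.deriv' le_rfl i (show 2 < m by omega)
    refine ⟨_, _, Top.term (i :: γ) (by simp [hγ]) k1, c.mul (Pol.top γ (by omega) hγ.le),
      fun U p hU => ?_⟩
    rw [D_mul (k1.sm hU).diff (hU.Dl γ).diff, h1 U p hU]; rfl
  | add k1 k2 h1 h2 =>
    obtain ⟨P1, b1, a1, c1, h1⟩ := h1
    obtain ⟨P2, b2, a2, c2, h2⟩ := h2
    refine ⟨_, _, a1.add a2, c1.add c2, fun U p hU => ?_⟩
    rw [D_add (k1.sm hU).diff (k2.sm hU).diff, h1 U p hU, h2 U p hU]; ring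

end Vale.Agent.P218HD
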